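import Vale.Agent.P287.H674.ThmL
import Vale.Agent.P287.H673.Prime

/-!
A smooth cubic fourfold with two distinct involutions, one of which is antisymplectic, contains
two disjoint planes and is rational.
-/

open MvPolynomial Vale.Agent.P287.H674 Vale.Agent.P287.H673

theorem Vale.Agent.Results.P287.AntisymplecticPairs.result
    (F : MvPolynomial (Fin 6) ℂ) (hF : SmoothCubic F)
    (σ τ : (Fin 6 → ℂ) ≃ₗ[ℂ] (Fin 6 → ℂ)) (hσ : Involution F σ) (hτ : Involution F τ)
    (hanti : Antisymplectic F σ) (hne : ¬ ProjEq σ τ) :
    TwoDisjointPlanes F ∧ RationalHypersurface F ∧ RationalFunctionField F :=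
  have h := pair_proj hF hσ hτ hanti hne
  have hR := rational_of_two_planes hF h
  ⟨h, hR, rationalFunctionField_of hF hR⟩
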