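import Vale.Agent.P287.H674.Inv
import Vale.Agent.P287.H673.Prime

/-!
Involutions and planes of smooth cubic fourfolds: a smooth cubic fourfold with a plane which is
moved by an involution is rational; so is one with an antisymplectic involution, unless this is
the reflection in an Eckardt point lying on all planes, and the only involution.
-/

open MvPolynomial Vale.Agent.P287.H674 Vale.Agent.P287.H673

theorem Vale.Agent.Results.P287.InvolutionPlane.result
    (F : MvPolynomial (Fin 6) ℂ) (hF : SmoothCubic F) :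
    (∀ (g : (Fin 6 → ℂ) ≃ₗ[ℂ] (Fin 6 → ℂ)) (W : Submodule ℂ (Fin 6 → ℂ)), Involution F g →
      PlaneIn F W → W.map (g : (Fin 6 → ℂ) →ₗ[ℂ] (Fin 6 → ℂ)) ≠ W →
      RationalHypersurface F ∧ RationalFunctionField F) ∧
    (∀ g : (Fin 6 → ℂ) ≃ₗ[ℂ] (Fin 6 → ℂ), Involution F g → Antisymplectic F g →
      (RationalHypersurface F ∧ RationalFunctionField F) ∨
      ∃ e, EckardtPoint F e ∧
        (∀ h : (Fin 6 → ℂ) ≃ₗ[ℂ] (Fin 6 → ℂ), Involution F h → ProjEq g h) ∧
        ∀ W, PlaneIn F W → e ∈ W) ∧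
    (∀ e, EckardtPoint F e → ((∃ W, PlaneIn F W ∧ e ∉ W) ↔ TwoDisjointPlanes F)) ∧
    (∀ s : (Fin 6 → ℂ) →ₗ[ℂ] (Fin 6 → ℂ), (∀ v, s (s v) = v) →
      (∀ v, eval (s v) F = eval v F) → LinearMap.det s = -1 →
      ((∃ W, PlaneIn F W ∧ 2 * Module.finrank ℂ (W ⊓ antiSpace s : Submodule ℂ (Fin 6 → ℂ)) <
        Module.finrank ℂ (antiSpace s)) ↔ TwoDisjointPlanes F)) :=
  ⟨fun _ _ hg hW hgW =>
      have hR := rational_of_moved_plane hF hg hW hgW
      ⟨hR, rationalFunctionField_of hF hR⟩,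
    fun _ hg ha => (rational_of_anti hF hg ha).imp_left fun hR =>
      ⟨hR, rationalFunctionField_of hF hR⟩,
    fun _ he => eckardt_iff hF he, fun _ hs hsF hdet => anti_iff hF hs hsF hdet⟩
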