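import Vale.Agent.P287.H674.Pn10
import Vale.Agent.P287.H674.Ratl
import Vale.Agent.P287.H673.Prime

/-!
The planes of a smooth cubic fourfold: two disjoint planes (and then the cubic is rational), or at
most 27 planes in an explicit configuration.
-/

open MvPolynomial Vale.Agent.P287.H674 Vale.Agent.P287.H673

theorem Vale.Agent.Results.P287.PlaneConfigurations.result
    (F : MvPolynomial (Fin 6) ℂ) (hF : SmoothCubic F) :
    (TwoDisjointPlanes F ∧ RationalHypersurface F ∧ RationalFunctionField F) ∨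
    ({Q | PlaneIn F Q}.Finite ∧ {Q | PlaneIn F Q}.ncard ≤ 20 ∧
      ∀ Q R, PlaneIn F Q → PlaneIn F R → Q ≠ R →
        Module.finrank ℂ (Q ⊓ R : Submodule ℂ (Fin 6 → ℂ)) = 1) ∨
    (∃ P, PlaneIn F P ∧
      (∀ Q, PlaneIn F Q → Q ≠ P → Module.finrank ℂ (P ⊓ Q : Submodule ℂ (Fin 6 → ℂ)) = 2) ∧
      {Q | PlaneIn F Q}.Finite ∧ Odd {Q | PlaneIn F Q}.ncard ∧
      {Q | PlaneIn F Q}.ncard ≤ 27) ∨
    {Q | PlaneIn F Q}.ncard = 9 ∨ {Q | PlaneIn F Q}.ncard = 15 ∨
      {Q | PlaneIn F Q}.ncard = 27 := by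
  rcases planes_all (K := 13) hF (fun hd p U hp hU1 hU2 => by
    have hS : Sm (tri F) := ⟨tri_comm1 F, tri_comm2 F, fun v hv => smooth_tri hF hv⟩
    refine star_bound hS (by simp) ?_ p U hp hU1 hU2
    intro A B hA hB e
    refine hd ⟨A, B, ⟨hA.1, fun w hw => ?_⟩, ⟨hB.1, fun w hw => ?_⟩, e⟩
    · rw [← tri_self hF.1]; exact hA.2 w hw
    · rw [← tri_self hF.1]; exact hB.2 w hw) with h | h
  · have hR := rational_of_two_planes hF h
    exact Or.inl ⟨h, hR, rationalFunctionField_of hF hR⟩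
  · exact Or.inr h
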