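import Vale.Agent.P287.H674.PlaneLat
import Vale.Agent.P287.H674.Ratl
import Vale.Agent.P287.H673.Prime

/-!
Kuznetsov's conjecture and the lattice spanned by the planes of a cubic fourfold.
-/

open MvPolynomial Vale.Agent.P287.H674 Vale.Agent.P287.H673

theorem Vale.Agent.Results.P287.PlaneLattice.result
    (F : MvPolynomial (Fin 6) ℂ) (hF : SmoothCubic F) :
    ((∃ (n : ℕ) (P : Fin n → Submodule ℂ (Fin 6 → ℂ)) (a : ℤ) (m : Fin n → ℤ),
        (∀ i, PlaneIn F (P i)) ∧ Admissible (discr P a m)) ↔ TwoDisjointPlanes F) ∧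
    ((∃ (n : ℕ) (P : Fin n → Submodule ℂ (Fin 6 → ℂ)) (a : ℤ) (m : Fin n → ℤ),
        (∀ i, PlaneIn F (P i)) ∧ ¬ 4 ∣ discr P a m) →
      TwoDisjointPlanes F ∧ RationalHypersurface F ∧ RationalFunctionField F) := by
  refine ⟨⟨?_, ?_⟩, ?_⟩
  · rintro ⟨n, P, a, m, hP, hd⟩
    exact twoDisjoint_of_discr hP hd.2.2.1
  · rintro ⟨A, B, hA, hB, hAB⟩
    refine ⟨2, ![A, B], 0, ![1, 1], fun i => ?_, ?_⟩
    · fin_cases i
      · exact hA
      · exact hB
    · rw [discr_fourteen hA hB hAB]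
      exact admissible_fourteen
  · rintro ⟨n, P, a, m, hP, hd⟩
    have h := twoDisjoint_of_discr hP hd
    have hR := rational_of_two_planes hF h
    exact ⟨h, hR, rationalFunctionField_of hF hR⟩
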